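import Vale.Agent.P158.Stmt
import Mathlib.Topology.Instances.Int
import Mathlib.Topology.MetricSpace.Pseudo.Constructions
import Mathlib.Order.Bounds.Defs

/-! Definitions used in the statement: highway points, rays and the eikonal equation. -/

namespace Vale.Agent.N158

open Vale.Agent.P158

/-- The vertex `z` lies, up to the error `C`, on a geodesic between two vertices at sup-distance
more than `r` from `z`. -/
def Highway (t : latt.edgeSet → ℝ) (C r : ℝ) (z : V) : Prop :=
  ∃ x y : V, r < dist x z ∧ r < dist y z ∧
    passageTime t x z + passageTime t z y < passageTime t x y + C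

/-- Geodesic rays. -/
structure IsGeodesicRay (t : latt.edgeSet → ℝ) (v : ℕ → V) : Prop where
  injective : Function.Injective v
  adj : ∀ i, latt.Adj (v i) (v (i + 1))
  geodesic : ∀ i j, i < j →
    ∑ k ∈ Finset.Ico i j, t ⟨s(v k, v (k + 1)), adj k⟩ = passageTime t (v i) (v j)

/-- The eikonal equation: `h x` is the minimum of `t_{xy} + h y` over the neighbours `y` of `x`. -/
def IsEikonal (t : latt.edgeSet → ℝ) (h : V → ℝ) : Prop :=
  ∀ x, IsLeast {a | ∃ (y : V) (hxy : latt.Adj x y), a = t ⟨s(x, y), hxy⟩ + h y} (h x)

end Vale.Agent.N158
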