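import Vale.Agent.N158.Prob

/-! Deterministic facts: rays, the eikonal equation, horofunctions. -/

namespace Vale.Agent.N158

open Filter SimpleGraph Vale.Agent.P158 Vale.Agent.P158.H219 Vale.Agent.P158.H648
  Vale.Agent.P158.T1
open scoped Topology

variable {t : Env} {h h' : V → ℝ}

theorem walk_nonempty (a b : V) : Nonempty (latt.Walk a b) :=
  let ⟨p, _⟩ := conn_univ a b
  ⟨p⟩

theorem pt_comm (ht : ∀ e, 0 < t e) (x y : V) : passageTime t x y = passageTime t y x := by
  rw [← T_wt, ← T_wt, T_comm (H219.adm_of_pos ht)]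

theorem pt_self (ht : ∀ e, 0 < t e) (x : V) : passageTime t x x = 0 := by
  rw [← T_wt, T_self (H219.adm_of_pos ht)]

theorem pt_triangle (ht : ∀ e, 0 < t e) (x y z : V) :
    passageTime t x z ≤ passageTime t x y + passageTime t y z := by
  rw [← T_wt, ← T_wt, ← T_wt]
  exact T_triangle (H219.adm_of_pos ht) x y z

theorem pt_adj (ht : ∀ e, 0 < t e) {x y : V} (hxy : latt.Adj x y) :
    passageTime t x y ≤ t ⟨s(x, y), hxy⟩ := by
  have h1 := T_adj_le (H219.adm_of_pos ht) hxy
  rwa [T_wt, wt_eq t hxy] at h1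

theorem dist_le_iff {x z : V} {N : ℕ} : dist x z ≤ N ↔ x ∈ bx z N := by
  rw [Prod.dist_eq, Int.dist_eq, Int.dist_eq, max_le_iff, mem_bx]
  constructor
  · rintro ⟨h1, h2⟩
    exact ⟨by exact_mod_cast h1, by exact_mod_cast h2⟩
  · rintro ⟨h1, h2⟩
    exact ⟨by exact_mod_cast h1, by exact_mod_cast h2⟩

theorem Highway.mono {C C' r r' : ℝ} {z : V} (hC : C ≤ C') (hr : r' ≤ r)
    (h : Highway t C r z) : Highway t C' r' z := by
  obtain ⟨x, y, hx, hy, hxy⟩ := h
  exact ⟨x, y, hr.trans_lt hx, hr.trans_lt hy, by linarith⟩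

/-- Points of rays far from the starting point are highway points. -/
theorem highway_of_ray {v : ℕ → V} (hv : IsGeodesicRay t v) {i : ℕ} {r : ℝ} (hr : 0 ≤ r)
    (hi : r < dist (v 0) (v i)) : Highway t 1 r (v i) := by
  have hi0 : 0 < i := by
    rcases Nat.eq_zero_or_pos i with rfl | h0
    · rw [dist_self] at hi
      exact absurd hi (not_lt.2 hr)
    · exact h0
  have hfin : (v ⁻¹' bx (v i) ⌈r⌉₊).Finite := (bx_finite _ _).preimage hv.injective.injOn
  obtain ⟨j, hj, hij⟩ : ∃ j, j ∉ v ⁻¹' bx (v i) ⌈r⌉₊ ∧ i < j := by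
    obtain ⟨b, hb⟩ := hfin.bddAbove
    refine ⟨max b i + 1, fun hcon => ?_, by omega⟩
    have := hb hcon
    omega
  refine ⟨v 0, v j, hi, ?_, ?_⟩
  · refine (Nat.le_ceil r).trans_lt (not_le.1 fun hcon => hj ?_)
    exact dist_le_iff.1 hcon
  · rw [← hv.geodesic 0 i hi0, ← hv.geodesic i j hij, ← hv.geodesic 0 j (hi0.trans hij),
      Finset.sum_Ico_consecutive _ hi0.le hij.le]
    exact lt_add_one _

theorem eik_walk (hh : IsEikonal t h) {x y : V} (p : latt.Walk x y) :
    h x ≤ walkWeight t p + h y := by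
  induction p with
  | nil => simp [walkWeight]
  | @cons u v w huv p ih =>
    have h1 := (hh u).2 ⟨v, huv, rfl⟩
    rw [wW_cons]
    linarith

theorem eik_lip (hh : IsEikonal t h) (x y : V) : h x ≤ passageTime t x y + h y := by
  have := walk_nonempty x y
  have h1 : h x - h y ≤ passageTime t x y :=
    le_ciInf fun p => by linarith [eik_walk hh p]
  linarith

/-- Following the geodesic graph out of a box. -/
theorem eik_exit (ht : ∀ e, 0 < t e) (hh : IsEikonal t h) (z : V) (N : ℕ) :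
    ∃ x, (N : ℝ) < dist x z ∧ dist x z ≤ ((N + 1 : ℕ) : ℝ) ∧ passageTime t z x + h x ≤ h z := by
  have hfin : {x | x ∈ bx z N ∧ passageTime t z x + h x ≤ h z}.Finite :=
    (bx_finite z N).subset fun _ hx => hx.1
  have hne : {x | x ∈ bx z N ∧ passageTime t z x + h x ≤ h z}.Nonempty :=
    ⟨z, dist_le_iff.1 (by rw [dist_self]; exact Nat.cast_nonneg _), by
      rw [pt_self ht, zero_add]⟩
  obtain ⟨x, ⟨hx1, hx2⟩, hmin⟩ := Set.exists_min_image _ h hfin hne
  obtain ⟨y, hxy, hy⟩ := (hh x).1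
  have h1 : passageTime t z y + h y ≤ h z := by
    linarith [pt_triangle ht z x y, pt_adj ht hxy]
  refine ⟨y, not_le.1 fun hcon => ?_, dist_le_iff.2 (bx_adj hxy hx1), h1⟩
  have h2 := hmin y ⟨dist_le_iff.1 hcon, h1⟩
  linarith [ht ⟨s(x, y), hxy⟩]

theorem eik_back (ht : ∀ e, 0 < t e) (hh : IsEikonal t h) {C : ℝ} {N : ℕ} {z : V}
    (hz : ¬ Highway t C N z) {x : V} (hx : (N : ℝ) < dist x z) :
    h x + C ≤ passageTime t x z + h z := by
  obtain ⟨y, hy1, -, hy2⟩ := eik_exit ht hh z N
  have h1 : passageTime t x y + C ≤ passageTime t x z + passageTime t z y :=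
    not_lt.1 fun hcon => hz ⟨x, y, hx, hy1, hcon⟩
  linarith [eik_lip hh x y]

theorem eik_sum (ht : ∀ e, 0 < t e) (hh : IsEikonal t h) (hh' : IsEikonal t h') {C : ℝ} {N : ℕ}
    {z : V} (hz : ¬ Highway t C N z) :
    ∃ x, dist x z ≤ ((N + 1 : ℕ) : ℝ) ∧ h x + h' x + C ≤ h z + h' z := by
  obtain ⟨x, hx1, hx2, hx3⟩ := eik_exit ht hh z N
  refine ⟨x, hx2, ?_⟩
  linarith [eik_back ht hh' hz hx1, pt_comm ht x z]

/-- The first step of an optimal walk. -/
theorem first_step (ht : ∀ e, 0 < t e) {x w : V} (hxw : x ≠ w) :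
    ∃ y ∈ {y | latt.Adj x y}, passageTime t x w = wt t x y + passageTime t y w := by
  have hfin : {y | latt.Adj x y}.Finite :=
    (bx_finite x (0 + 1)).subset fun y hy => bx_adj hy (by simp [mem_bx])
  have hne : {y | latt.Adj x y}.Nonempty := ⟨(x.1 + 1, x.2), H219.adj_iff.2 (Or.inl rfl)⟩
  obtain ⟨y, hy, hmin⟩ := Set.exists_min_image _ (fun y => wt t x y + passageTime t y w) hfin hne
  refine ⟨y, hy, le_antisymm ?_ ?_⟩
  · rw [wt_eq t hy]
    linarith [pt_triangle ht x y w, pt_adj ht hy]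
  · have := walk_nonempty x w
    refine le_ciInf fun p => ?_
    cases p with
    | nil => exact absurd rfl hxw
    | @cons _ u _ hxu p =>
      have h1 := hmin u hxu
      have h2 := passageTime_le (fun e => (ht e).le) p
      rw [wW_cons, ← wt_eq t hxu]
      linarith

/-- Horofunctions solve the eikonal equation. -/
theorem eik_of_limit (ht : ∀ e, 0 < t e) {ι : Type*} {l : Filter ι} [l.NeBot] {w : ι → V}
    {a : ι → ℝ} (hw : Tendsto w l cofinite)
    (hlim : ∀ x, Tendsto (fun n => passageTime t x (w n) - a n) l (𝓝 (h x))) : IsEikonal t h := by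
  intro x
  constructor
  · have hfin : {y | latt.Adj x y}.Finite :=
      (bx_finite x (0 + 1)).subset fun y hy => bx_adj hy (by simp [mem_bx])
    have h1 : ∀ᶠ n in l, ∃ y ∈ {y | latt.Adj x y},
        passageTime t x (w n) = wt t x y + passageTime t y (w n) := by
      filter_upwards [hw.eventually (eventually_cofinite_ne x)] with n hn
      exact first_step ht hn.symm
    obtain ⟨y, hy, h2⟩ := hfin.frequently_exists.1 h1.frequently
    refine ⟨y, hy, ?_⟩
    rw [← wt_eq t hy]
    refine tendsto_nhds_unique_of_frequently_eq (hlim x) ((hlim y).const_add (wt t x y)) ?_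
    refine h2.mono fun n hn => ?_
    rw [hn]
    ring
  · rintro _ ⟨y, hy, rfl⟩
    refine le_of_tendsto_of_tendsto' (hlim x) ((hlim y).const_add _) fun n => ?_
    linarith [pt_triangle ht x y (w n), pt_adj ht hy]

theorem exists_eikonal (ht : ∀ e, 0 < t e) : ∃ h, IsEikonal t h := by
  have key : ∀ x : V, ∃ c, Tendsto (fun w : V => passageTime t x w - passageTime t 0 w)
      (hyperfilter V) (𝓝 c) := by
    intro x
    have h1 : ∀ w : V, passageTime t x w - passageTime t 0 w ∈
        Set.Icc (-passageTime t 0 x) (passageTime t x 0) := fun w =>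
      ⟨by linarith [pt_triangle ht 0 x w], by linarith [pt_triangle ht x 0 w]⟩
    obtain ⟨c, -, hc⟩ := isCompact_Icc.ultrafilter_le_nhds
      ((hyperfilter V).map fun w : V => passageTime t x w - passageTime t 0 w)
      (le_principal_iff.2 (mem_map.2 (Eventually.of_forall h1)))
    exact ⟨c, hc⟩
  choose h hh using key
  exact ⟨h, eik_of_limit ht (l := hyperfilter V) (w := fun w => w)
    (tendsto_id'.2 hyperfilter_le_cofinite) hh⟩

end Vale.Agent.N158
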