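import Mathlib.MeasureTheory.Integral.Lebesgue.Markov
import Mathlib.MeasureTheory.Measure.Typeclasses.Probability
import Mathlib.Analysis.SpecialFunctions.Exp
import Mathlib.MeasureTheory.Function.SpecialFunctions.Basic
import Mathlib.MeasureTheory.Constructions.BorelSpace.Real

/-! A large deviation bound for events that are independent inside colour classes. -/

namespace Vale.Agent.N158

open MeasureTheory Finset
open scoped ENNReal

variable {Ω ι κ : Type*} [MeasurableSpace Ω]

/-- The number of events in `B` that occur. -/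
noncomputable def cnt (E : ι → Set Ω) (B : Finset ι) (t : Ω) : ℝ :=
  ∑ z ∈ B, (E z).indicator (fun _ => (1 : ℝ)) t

theorem measurable_cnt {E : ι → Set Ω} (hE : ∀ z, MeasurableSet (E z)) (B : Finset ι) :
    Measurable (cnt E B) :=
  Finset.measurable_sum _ fun z _ => measurable_const.indicator (hE z)

theorem ld_abstract (μ : Measure Ω) [IsProbabilityMeasure μ] [Fintype κ] [DecidableEq κ]
    [Nonempty κ] (A : Finset ι) (col : ι → κ) {E : ι → Set Ω} (hE : ∀ z, MeasurableSet (E z))
    {θ q ε : ℝ} (hθ : 0 ≤ θ) (hq : q ≤ θ * ε / 2)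
    (hmgf : ∀ j, ∫⁻ t, ENNReal.ofReal (Real.exp (θ * cnt E (A.filter fun z => col z = j) t)) ∂μ ≤
      ENNReal.ofReal (Real.exp (q * (A.filter fun z => col z = j).card))) :
    μ {t | ε * A.card ≤ cnt E A t} ≤
      ENNReal.ofReal (Real.exp (-(θ * ε * A.card / (2 * Fintype.card κ)))) := by
  set m : ℕ := Fintype.card κ with hm
  have hm0 : 0 < m := Fintype.card_pos
  have hmR : (0 : ℝ) < m := by exact_mod_cast hm0
  set a : ℝ := θ * ε * A.card / (2 * m) with ha
  set B : κ → Finset ι := fun j => A.filter fun z => col z = j with hB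
  set g : κ → Ω → ℝ≥0∞ := fun j t =>
    ENNReal.ofReal (Real.exp (θ * cnt E (B j) t - q * (B j).card - a)) with hg
  have hgm : ∀ j, Measurable (g j) := fun j =>
    (Real.measurable_exp.comp ((((measurable_cnt hE _).const_mul θ).sub_const _).sub_const
      _)).ennreal_ofReal
  have hsum : ∀ t, ∑ j, cnt E (B j) t = cnt E A t := fun t => by
    unfold cnt
    exact Finset.sum_fiberwise A col _
  have hcard : ∑ j, ((B j).card : ℝ) = A.card := by
    have h1 := Finset.sum_fiberwise A col (fun _ => (1 : ℝ))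
    simpa only [Finset.sum_const, nsmul_eq_mul, mul_one] using h1
  have hsub : {t | ε * A.card ≤ cnt E A t} ⊆ {t | (m : ℝ≥0∞) ≤ ∑ j, g j t} := by
    intro t ht
    have ht' : ε * A.card ≤ cnt E A t := ht
    show (m : ℝ≥0∞) ≤ ∑ j, g j t
    simp only [hg]
    rw [← ENNReal.ofReal_sum_of_nonneg fun j _ => (Real.exp_pos _).le, ← ENNReal.ofReal_natCast]
    refine ENNReal.ofReal_le_ofReal ?_
    have h1 : ∑ j : κ, (θ * cnt E (B j) t - q * (B j).card - a + 1) ≤
        ∑ j : κ, Real.exp (θ * cnt E (B j) t - q * (B j).card - a) :=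
      Finset.sum_le_sum fun j _ => Real.add_one_le_exp _
    refine le_trans ?_ h1
    rw [Finset.sum_add_distrib, Finset.sum_sub_distrib, Finset.sum_sub_distrib, ← Finset.mul_sum,
      ← Finset.mul_sum, hsum, hcard, Finset.sum_const, Finset.sum_const, Finset.card_univ, ← hm,
      nsmul_eq_mul, nsmul_eq_mul, mul_one]
    have h2 : (m : ℝ) * a = θ * ε * A.card / 2 := by
      rw [ha]; field_simp
    have h3 : θ * (ε * A.card) ≤ θ * cnt E A t := mul_le_mul_of_nonneg_left ht' hθ
    have h4 : q * A.card ≤ θ * ε / 2 * A.card :=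
      mul_le_mul_of_nonneg_right hq (Nat.cast_nonneg _)
    nlinarith only [h2, h3, h4]
  have hint : ∀ j, ∫⁻ t, g j t ∂μ ≤ ENNReal.ofReal (Real.exp (-a)) := by
    intro j
    have h1 : ∀ t, g j t = ENNReal.ofReal (Real.exp (-(q * (B j).card) - a)) *
        ENNReal.ofReal (Real.exp (θ * cnt E (B j) t)) := by
      intro t
      simp only [hg]
      rw [← ENNReal.ofReal_mul (Real.exp_pos _).le, ← Real.exp_add]
      congr 2
      ring
    simp only [h1]
    have h2 : Measurable fun t => ENNReal.ofReal (Real.exp (θ * cnt E (B j) t)) :=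
      (Real.measurable_exp.comp ((measurable_cnt hE _).const_mul θ)).ennreal_ofReal
    rw [lintegral_const_mul _ h2]
    calc _ ≤ ENNReal.ofReal (Real.exp (-(q * (B j).card) - a)) *
          ENNReal.ofReal (Real.exp (q * (B j).card)) := mul_le_mul_right (hmgf j) _
      _ = _ := by
        rw [← ENNReal.ofReal_mul (Real.exp_pos _).le, ← Real.exp_add]
        congr 2
        ring
  have hmk := mul_meas_ge_le_lintegral (μ := μ) (f := fun t => ∑ j, g j t)
    (Finset.measurable_sum _ fun j _ => hgm j) (m : ℝ≥0∞)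
  rw [lintegral_finsetSum _ fun j _ => hgm j] at hmk
  have h5 : ∑ j : κ, ∫⁻ t, g j t ∂μ ≤ (m : ℝ≥0∞) * ENNReal.ofReal (Real.exp (-a)) := by
    calc _ ≤ ∑ _j : κ, ENNReal.ofReal (Real.exp (-a)) := Finset.sum_le_sum fun j _ => hint j
      _ = _ := by rw [Finset.sum_const, Finset.card_univ, ← hm, nsmul_eq_mul]
  have h6 : (m : ℝ≥0∞) * μ {t | ε * A.card ≤ cnt E A t} ≤
      (m : ℝ≥0∞) * ENNReal.ofReal (Real.exp (-a)) :=
    (mul_le_mul_right (measure_mono hsub) _).trans (hmk.trans h5)
  exact (ENNReal.mul_le_mul_iff_right (by exact_mod_cast hm0.ne') (ENNReal.natCast_ne_top m)).1 h6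

/-- The exponential moment of one indicator. -/
theorem mgf_one (μ : Measure Ω) [IsProbabilityMeasure μ] {E : Set Ω} (hE : MeasurableSet E)
    (θ : ℝ) {p : ℝ} (hp : 0 ≤ p) (h : μ E ≤ ENNReal.ofReal p) :
    ∫⁻ t, ENNReal.ofReal (Real.exp (θ * E.indicator (fun _ => (1 : ℝ)) t)) ∂μ ≤
      ENNReal.ofReal (Real.exp (p * Real.exp θ)) := by
  have h1 : ∀ t, ENNReal.ofReal (Real.exp (θ * E.indicator (fun _ => (1 : ℝ)) t)) ≤
      1 + E.indicator (fun _ => ENNReal.ofReal (Real.exp θ)) t := by
    intro t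
    by_cases ht : t ∈ E
    · rw [Set.indicator_of_mem ht, Set.indicator_of_mem ht, mul_one]
      exact le_add_self
    · rw [Set.indicator_of_notMem ht, Set.indicator_of_notMem ht, mul_zero, Real.exp_zero,
        ENNReal.ofReal_one, add_zero]
  refine (lintegral_mono h1).trans ?_
  rw [lintegral_add_left measurable_const, lintegral_const, measure_univ, mul_one,
    lintegral_indicator_const hE]
  calc 1 + ENNReal.ofReal (Real.exp θ) * μ E
      ≤ 1 + ENNReal.ofReal (Real.exp θ) * ENNReal.ofReal p := by gcongr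
    _ = ENNReal.ofReal (p * Real.exp θ + 1) := by
      rw [← ENNReal.ofReal_mul (Real.exp_pos _).le, ENNReal.ofReal_add (by positivity) zero_le_one,
        ENNReal.ofReal_one, add_comm, mul_comm]
    _ ≤ _ := ENNReal.ofReal_le_ofReal (Real.add_one_le_exp _)

end Vale.Agent.N158
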