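import Vale.Agent.N158.Det

/-! Almost sure statements: highways and byways, and the eikonal equation. -/

namespace Vale.Agent.N158

open MeasureTheory ProbabilityTheory Filter Vale.Agent.P158 Vale.Agent.P158.H219
  Vale.Agent.P158.H648 Vale.Agent.P158.T1
open scoped ENNReal Topology

variable {G : Measure ℝ} [IsProbabilityMeasure G]
variable {Ω : Type*} [MeasurableSpace Ω] {P : Measure Ω} {t : latt.edgeSet → Ω → ℝ}

theorem ae_family (hG : G (Set.Iio 0) = 0) (hatom : ∀ x, G {x} = 0)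
    (ht : ∀ e, Measurable (t e)) (hlaw : ∀ e, P.map (t e) = G) (hind : iIndepFun t P)
    (A : ℕ → Finset V) (hA : ∀ n, n ≤ (A n).card) :
    ∀ᵐ ω ∂P, ∀ (C ε : ℝ), 0 < ε → ∃ N : ℕ, ∀ᶠ n in atTop,
      ({z | z ∈ A n ∧ Highway (fun e => t e ω) C N z}.ncard : ℝ) < ε * (A n).card := by
  have key : ∀ k : ℕ, ∀ᵐ ω ∂P, ∃ N : ℕ, ∀ᶠ n in atTop,
      ({z | z ∈ A n ∧ Highway (fun e => t e ω) k N z}.ncard : ℝ) <
        1 / ((k : ℝ) + 1) * (A n).card := by
    intro k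
    obtain ⟨N, hN, hN1⟩ := ((ld_highway hG hatom ht hlaw hind
      (ε := 1 / ((k : ℝ) + 1)) (by positivity) k 1).and (eventually_ge_atTop 1)).exists
    have hN2 : (0 : ℝ) < N := by exact_mod_cast hN1
    have hsum : Summable fun n : ℕ => Real.exp (n * (-(1 / (N : ℝ) ^ 2))) :=
      Real.summable_exp_nat_mul_iff.2 (neg_lt_zero.2 (by positivity))
    have h1 : ∑' n, P {ω | 1 / ((k : ℝ) + 1) * (A n).card ≤
        ({z | z ∈ A n ∧ Highway (fun e => t e ω) k N z}.ncard : ℝ)} ≠ ∞ := by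
      refine ne_top_of_le_ne_top hsum.tsum_ofReal_ne_top (ENNReal.tsum_le_tsum fun n => ?_)
      refine (hN (A n)).trans (ENNReal.ofReal_le_ofReal (Real.exp_le_exp.2 ?_))
      have h2 : (n : ℝ) ≤ (A n).card := by exact_mod_cast hA n
      rw [one_mul, mul_neg, mul_one_div]
      exact neg_le_neg (div_le_div_of_nonneg_right h2 (by positivity))
    filter_upwards [ae_eventually_notMem h1] with ω hω
    exact ⟨N, hω.mono fun n hn => not_le.1 hn⟩
  filter_upwards [ae_all_iff.2 key] with ω hω C ε hε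
  obtain ⟨k1, hk1⟩ := exists_nat_one_div_lt hε
  obtain ⟨k2, hk2⟩ := exists_nat_ge C
  obtain ⟨N, hN⟩ := hω (k1 + k2)
  refine ⟨N, hN.mono fun n hn => ?_⟩
  have h1 : ({z | z ∈ A n ∧ Highway (fun e => t e ω) C N z}.ncard : ℝ) ≤
      ({z | z ∈ A n ∧ Highway (fun e => t e ω) ((k1 + k2 : ℕ) : ℝ) N z}.ncard : ℝ) := by
    refine Nat.cast_le.2 (Set.ncard_le_ncard (fun z hz => ⟨hz.1, hz.2.mono ?_ le_rfl⟩)
      ((A n).finite_toSet.subset fun z hz => hz.1))
    push_cast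
    linarith [(Nat.cast_nonneg k1 : (0 : ℝ) ≤ k1)]
  have h2 : 1 / (((k1 + k2 : ℕ) : ℝ) + 1) ≤ ε := by
    refine le_trans (one_div_le_one_div_of_le (by positivity) ?_) hk1.le
    push_cast
    linarith [(Nat.cast_nonneg k2 : (0 : ℝ) ≤ k2)]
  exact h1.trans_lt (hn.trans_le (mul_le_mul_of_nonneg_right h2 (Nat.cast_nonneg _)))

/-- The boundary of the square of radius `n`. -/
noncomputable def sq (n : ℕ) : Finset V :=
  ({(n : ℤ), -(n : ℤ)} ×ˢ Finset.Icc (-(n : ℤ)) n) ∪ (Finset.Icc (-(n : ℤ)) n ×ˢ {(n : ℤ), -(n : ℤ)})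

theorem card_Icc' (n : ℕ) : (Finset.Icc (-(n : ℤ)) n).card = 2 * n + 1 := by
  rw [Int.card_Icc]
  omega

theorem le_card_sq (n : ℕ) : n ≤ (sq n).card := by
  have h1 : ({(n : ℤ)} ×ˢ Finset.Icc (-(n : ℤ)) n : Finset V) ⊆ sq n :=
    (Finset.product_subset_product_left (by simp)).trans Finset.subset_union_left
  have h2 := Finset.card_le_card h1
  rw [Finset.card_product, Finset.card_singleton, card_Icc'] at h2
  omega

theorem card_sq_le (n : ℕ) : (sq n).card ≤ 4 * (2 * n + 1) := by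
  refine (Finset.card_union_le _ _).trans ?_
  rw [Finset.card_product, Finset.card_product, card_Icc']
  have h1 : ({(n : ℤ), -(n : ℤ)} : Finset ℤ).card ≤ 2 := Finset.card_le_two
  nlinarith only [h1]

theorem mem_sq {n : ℕ} {z : V} (h : dist z 0 = n) : z ∈ sq n := by
  rw [Prod.dist_eq, Int.dist_eq, Int.dist_eq] at h
  have h1 : max |z.1| |z.2| = (n : ℤ) := by
    have : ((max |z.1| |z.2| : ℤ) : ℝ) = ((n : ℤ) : ℝ) := by
      push_cast
      simpa using h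
    exact_mod_cast this
  unfold sq
  simp only [Finset.mem_union, Finset.mem_product, Finset.mem_insert, Finset.mem_singleton,
    Finset.mem_Icc]
  rcases abs_cases z.1 with a | a <;> rcases abs_cases z.2 with b | b <;>
    rcases max_cases |z.1| |z.2| with c | c <;> omega

theorem ae_sphere (hG : G (Set.Iio 0) = 0) (hatom : ∀ x, G {x} = 0)
    (ht : ∀ e, Measurable (t e)) (hlaw : ∀ e, P.map (t e) = G) (hind : iIndepFun t P) :
    ∀ᵐ ω ∂P, ∀ r : ℕ → ℝ, Tendsto r atTop atTop → ∀ C : ℝ, Tendsto (fun n : ℕ =>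
      ({z | dist z 0 = n ∧ Highway (fun e => t e ω) C (r n) z}.ncard : ℝ) / n) atTop (𝓝 0) := by
  filter_upwards [ae_family hG hatom ht hlaw hind sq le_card_sq] with ω hω r hr C
  rw [Metric.tendsto_nhds]
  intro ε hε
  obtain ⟨N, hN⟩ := hω C (ε / 12) (by positivity)
  filter_upwards [hN, hr.eventually_ge_atTop N, eventually_ge_atTop 1] with n h1 h2 h3
  have hn : (1 : ℝ) ≤ n := by exact_mod_cast h3
  rw [Real.dist_eq, sub_zero, abs_of_nonneg (by positivity), div_lt_iff₀ (by linarith)]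
  have h4 : ({z | dist z 0 = n ∧ Highway (fun e => t e ω) C (r n) z}.ncard : ℝ) ≤
      ({z | z ∈ sq n ∧ Highway (fun e => t e ω) C N z}.ncard : ℝ) :=
    Nat.cast_le.2 (Set.ncard_le_ncard (fun z hz => ⟨mem_sq hz.1, hz.2.mono le_rfl h2⟩)
      ((sq n).finite_toSet.subset fun z hz => hz.1))
  have h5 : ((sq n).card : ℝ) ≤ 4 * (2 * n + 1) := by exact_mod_cast card_sq_le n
  have h6 : ε / 12 * (sq n).card ≤ ε / 12 * (12 * n) :=
    mul_le_mul_of_nonneg_left (by linarith) (by positivity)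
  linarith

theorem ae_rays (hG : G (Set.Iio 0) = 0) (hatom : ∀ x, G {x} = 0)
    (ht : ∀ e, Measurable (t e)) (hlaw : ∀ e, P.map (t e) = G) (hind : iIndepFun t P) :
    ∀ᵐ ω ∂P, ∀ r : ℕ → ℝ, Tendsto r atTop atTop → Tendsto (fun n : ℕ =>
      ({z | dist z 0 = n ∧ ∃ (v : ℕ → V) (i : ℕ), IsGeodesicRay (fun e => t e ω) v ∧ v i = z ∧
        r n < dist (v 0) z}.ncard : ℝ) / n) atTop (𝓝 0) := by
  filter_upwards [ae_sphere hG hatom ht hlaw hind] with ω hω r hr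
  refine squeeze_zero' (Eventually.of_forall fun n => by positivity) ?_ (hω r hr 1)
  filter_upwards [hr.eventually_ge_atTop 0] with n hn
  refine div_le_div_of_nonneg_right (Nat.cast_le.2 (Set.ncard_le_ncard ?_
    ((sq n).finite_toSet.subset fun z hz => mem_sq hz.1))) (Nat.cast_nonneg _)
  rintro z ⟨hz, v, i, hv, rfl, hi⟩
  exact ⟨hz, highway_of_ray hv hn hi⟩

theorem ae_not_highway (hG : G (Set.Iio 0) = 0) (hatom : ∀ x, G {x} = 0)
    (ht : ∀ e, Measurable (t e)) (hlaw : ∀ e, P.map (t e) = G) (hind : iIndepFun t P) :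
    ∀ᵐ ω ∂P, (∀ e, 0 < t e ω) ∧ ∀ (z : V) (C : ℝ), ∃ N : ℕ, ¬ Highway (fun e => t e ω) C N z := by
  have : NullSingletonClass G := ⟨hatom⟩
  have hmap : P.map (fun ω e => t e ω) = PG G := by
    have h1 := hind.map_fun_eq_infinitePi_map ht
    rw [h1]
    unfold PG
    simp only [hlaw]
  have h2 : ∀ᵐ τ ∂(P.map (fun ω e => t e ω)), (∀ e, 0 < τ e) ∧
      ∀ (z : V) (C : ℝ), ∃ N : ℕ, ¬ Highway τ C N z := by
    rw [hmap]
    filter_upwards [ae_shift (ae_excess (G := G) hG), ae_pos G hG] with τ hτ hpos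
    refine ⟨hpos, fun z C => ?_⟩
    obtain ⟨N, hN⟩ := (notMem_locEv (hτ z).2 {0} C).exists
    exact ⟨N, fun h => hN (highway_ev hpos h)⟩
  exact ae_of_ae_map (measurable_pi_lambda _ ht).aemeasurable h2

theorem ae_eikonal (hG : G (Set.Iio 0) = 0) (hatom : ∀ x, G {x} = 0)
    (ht : ∀ e, Measurable (t e)) (hlaw : ∀ e, P.map (t e) = G) (hind : iIndepFun t P) :
    ∀ᵐ ω ∂P, (∃ h, IsEikonal (fun e => t e ω) h) ∧ ∀ (z : V) (C : ℝ), ∃ N : ℕ,
      ∀ h h' : V → ℝ, IsEikonal (fun e => t e ω) h → IsEikonal (fun e => t e ω) h' →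
        (∀ x, N < dist x z → h x + C ≤ passageTime (fun e => t e ω) x z + h z) ∧
        ∃ x, dist x z ≤ N + 1 ∧ h x + h' x + C ≤ h z + h' z := by
  filter_upwards [ae_not_highway hG hatom ht hlaw hind] with ω hω
  refine ⟨exists_eikonal hω.1, fun z C => ?_⟩
  obtain ⟨N, hN⟩ := hω.2 z C
  refine ⟨N, fun h h' hh hh' => ⟨fun x hx => eik_back hω.1 hh hN hx, ?_⟩⟩
  obtain ⟨x, hx1, hx2⟩ := eik_sum hω.1 hh hh' hN
  exact ⟨x, by exact_mod_cast hx1, hx2⟩

theorem ld_rate (hG : G (Set.Iio 0) = 0) (hatom : ∀ x, G {x} = 0)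
    (ht : ∀ e, Measurable (t e)) (hlaw : ∀ e, P.map (t e) = G) (hind : iIndepFun t P)
    (ε : ℝ) (hε : 0 < ε) (C : ℝ) : ∃ c > (0 : ℝ), ∃ r : ℝ, ∀ A : Finset V,
      P {ω | ε * A.card ≤ ({z | z ∈ A ∧ Highway (fun e => t e ω) C r z}.ncard : ℝ)} ≤
        ENNReal.ofReal (Real.exp (-c * A.card)) := by
  obtain ⟨N, hN, hN1⟩ := ((ld_highway hG hatom ht hlaw hind hε C 1).and
    (eventually_ge_atTop 1)).exists
  have hN2 : (0 : ℝ) < N := by exact_mod_cast hN1
  refine ⟨1 / (N : ℝ) ^ 2, by positivity, N, fun A => (hN A).trans (le_of_eq ?_)⟩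
  congr 2
  ring

end Vale.Agent.N158
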