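import Vale.Agent.P158.H648.Prob
import Vale.Agent.N158.Defs
import Vale.Agent.N158.LD
import Mathlib.Data.ZMod.Basic

/-! Large deviations of the number of highway points. -/

namespace Vale.Agent.N158

open MeasureTheory ProbabilityTheory Filter Vale.Agent.P158 Vale.Agent.P158.H219
  Vale.Agent.P158.H648 Vale.Agent.P158.T1 Vale.Agent.P158.T1.Erg
open scoped ENNReal Topology

variable {G : Measure ℝ} [IsProbabilityMeasure G]

/-- The function only depends on the weights of the edges in `F`. -/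
def Dep (f : Env → ℝ≥0∞) (F : Finset latt.edgeSet) : Prop :=
  ∀ t t' : Env, (∀ e ∈ F, t e = t' e) → f t = f t'

theorem Dep.factor {f : Env → ℝ≥0∞} {F : Finset latt.edgeSet} (hf : Measurable f)
    (df : Dep f F) : ∃ g : (∀ _ : F, ℝ) → ℝ≥0∞, Measurable g ∧
      f = g ∘ fun (t : Env) (i : F) => t i := by
  classical
  let x : (∀ _ : F, ℝ) → Env := fun h e => if he : e ∈ F then h ⟨e, he⟩ else 0
  have hx : Measurable x := by
    refine measurable_pi_lambda _ fun e => ?_
    by_cases he : e ∈ F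
    · have : (fun h : (∀ _ : F, ℝ) => x h e) = fun h => h ⟨e, he⟩ := by
        funext h; simp only [x, dif_pos he]
      rw [this]
      exact measurable_pi_apply _
    · have : (fun h : (∀ _ : F, ℝ) => x h e) = fun _ => 0 := by
        funext h; simp only [x, dif_neg he]
      rw [this]
      exact measurable_const
  refine ⟨f ∘ x, hf.comp hx, ?_⟩
  funext t
  refine df _ _ fun e he => ?_
  simp only [x, dif_pos he]

theorem lint_mul_dep {F F' : Finset latt.edgeSet} {f g : Env → ℝ≥0∞} (hf : Measurable f)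
    (hg : Measurable g) (df : Dep f F) (dg : Dep g F') (h : Disjoint F F') :
    ∫⁻ t, f t * g t ∂PG G = (∫⁻ t, f t ∂PG G) * ∫⁻ t, g t ∂PG G := by
  have hi : iIndepFun (fun (e : latt.edgeSet) (t : Env) => t e) (PG G) :=
    iIndepFun_infinitePi (X := fun _ s => s) (by fun_prop)
  have key := hi.indepFun_finset F F' h (fun e => by fun_prop)
  obtain ⟨f', hf', e1⟩ := df.factor hf
  obtain ⟨g', hg', e2⟩ := dg.factor hg
  have h1 : IndepFun f g (PG G) := by
    rw [e1, e2]
    exact key.comp hf' hg'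
  exact lintegral_mul_eq_lintegral_mul_lintegral_of_indepFun hf hg h1

theorem lint_prod_dep {F : V → Finset latt.edgeSet} {f : V → Env → ℝ≥0∞}
    (hf : ∀ z, Measurable (f z)) (df : ∀ z, Dep (f z) (F z)) (B : Finset V)
    (h : ∀ x ∈ B, ∀ y ∈ B, x ≠ y → Disjoint (F x) (F y)) :
    ∫⁻ t, ∏ z ∈ B, f z t ∂PG G = ∏ z ∈ B, ∫⁻ t, f z t ∂PG G := by
  classical
  induction B using Finset.induction_on with
  | empty => simp
  | insert a B ha ih =>
    simp only [Finset.prod_insert ha]
    have h1 : Dep (fun t => ∏ z ∈ B, f z t) (B.biUnion F) := fun t t' ht =>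
      Finset.prod_congr rfl fun z hz =>
        df z t t' fun e he => ht e (Finset.mem_biUnion.2 ⟨z, hz, he⟩)
    have h2 : Disjoint (F a) (B.biUnion F) := by
      rw [Finset.disjoint_biUnion_right]
      intro z hz
      exact h a (Finset.mem_insert_self _ _) z (Finset.mem_insert_of_mem hz)
        fun e => ha (e ▸ hz)
    rw [lint_mul_dep (hf a) (Finset.measurable_prod _ fun z _ => hf z) (df a) h1 h2,
      ih fun x hx y hy => h x (Finset.mem_insert_of_mem hx) y (Finset.mem_insert_of_mem hy)]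

/-- The local event around `z`. -/
def ev (C : ℝ) (N : ℕ) (z : V) : Set Env := shE z ⁻¹' locEv {0} C N

theorem measurableSet_ev (C : ℝ) (N : ℕ) (z : V) : MeasurableSet (ev C N z) :=
  (measurable_pi_lambda _ fun _ => measurable_pi_apply _ : Measurable (shE z))
    (isClosed_locEv _ C N).measurableSet

theorem prob_ev (C : ℝ) (N : ℕ) (z : V) : PG G (ev C N z) = PG G (locEv {0} C N) :=
  (mp_sh z).measure_preimage (isClosed_locEv _ C N).measurableSet.nullMeasurableSet

theorem ev_congr {C : ℝ} {N : ℕ} {z : V} {t t' : Env}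
    (h : ∀ e ∈ (bE N).map (se z).toEmbedding, t e = t' e) (ht : t ∈ ev C N z) : t' ∈ ev C N z :=
  locEv_congr (fun e he => h (se z e) (Finset.mem_map.2 ⟨e, he, rfl⟩)) ht

theorem passageTime_shE {t : Env} (ht : ∀ e, 0 < t e) (z x y : V) :
    passageTime (shE z t) x y = passageTime t (x + z) (y + z) := by
  rw [← T_wt, ← T_wt, wt_shE, T_sh (H219.adm_of_pos ht)]

theorem notMem_box {N : ℕ} {x z : V} (h : (N : ℝ) < dist x z) : x - z ∉ box N := by
  rintro ⟨h1, h2⟩
  refine absurd h (not_lt.2 ?_)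
  rw [Prod.dist_eq, Int.dist_eq, Int.dist_eq]
  refine max_le ?_ ?_
  · have : |x.1 - z.1| ≤ (N : ℤ) := h1
    exact_mod_cast this
  · have : |x.2 - z.2| ≤ (N : ℤ) := h2
    exact_mod_cast this

theorem highway_ev {t : Env} (ht : ∀ e, 0 < t e) {C : ℝ} {N : ℕ} {z : V}
    (h : Highway t C N z) : t ∈ ev C N z := by
  obtain ⟨x, y, hx, hy, hxy⟩ := h
  refine bigEv_subset (s := shE z t) (fun e => (ht _).le) (fun u hu => ?_)
    ⟨0, Finset.mem_singleton_self _, x - z, y - z, notMem_box hx, notMem_box hy, ?_⟩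
  · rw [Finset.mem_singleton.1 hu]
    simp [box]
  · simp only [passageTime_shE ht, sub_add_cancel, zero_add]
    exact hxy

theorem ncard_le_cnt {t : Env} (ht : ∀ e, 0 < t e) (C : ℝ) (N : ℕ) (A : Finset V) :
    (({z | z ∈ A ∧ Highway t C N z}.ncard : ℕ) : ℝ) ≤ cnt (ev C N) A t := by
  classical
  have h1 : {z | z ∈ A ∧ Highway t C N z} = (A.filter fun z => Highway t C N z : Finset V) := by
    ext z
    simp
  rw [h1, Set.ncard_coe_finset, Finset.card_filter]
  push_cast
  refine Finset.sum_le_sum fun z _ => ?_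
  by_cases hz : Highway t C N z
  · rw [if_pos hz, Set.indicator_of_mem (highway_ev ht hz)]
  · rw [if_neg hz]
    exact Set.indicator_nonneg (fun _ _ => zero_le_one) _

/-- The colouring by residues. -/
def col (M : ℕ) (z : V) : ZMod M × ZMod M := ((z.1 : ZMod M), (z.2 : ZMod M))

theorem disjoint_of_col {N : ℕ} {x y : V} (h : col (2 * N + 3) x = col (2 * N + 3) y)
    (hxy : x ≠ y) :
    Disjoint ((bE N).map (se x).toEmbedding) ((bE N).map (se y).toEmbedding) := by
  by_contra hcon
  have hR : ∀ e ∈ bE N, ∀ v ∈ e.1, v ∈ bx 0 (N + 1) := fun e he v hv => by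
    rw [← box_eq]
    exact mem_bE.1 he v hv
  have h1 := close_of_overlap hR hcon
  rw [mem_bx] at h1
  have h2 := (ZMod.intCast_eq_intCast_iff_dvd_sub _ _ _).1 (congrArg Prod.fst h)
  have h3 := (ZMod.intCast_eq_intCast_iff_dvd_sub _ _ _).1 (congrArg Prod.snd h)
  have h4 : y.1 - x.1 = 0 := Int.eq_zero_of_abs_lt_dvd h2 (by push_cast at h1 ⊢; omega)
  have h5 : y.2 - x.2 = 0 := Int.eq_zero_of_abs_lt_dvd h3 (by push_cast at h1 ⊢; omega)
  exact hxy (Prod.ext (by omega) (by omega))

theorem mgf_class {C θ p : ℝ} {N : ℕ} (hp : 0 ≤ p) (h : PG G (locEv {0} C N) ≤ ENNReal.ofReal p)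
    (B : Finset V) (hB : ∀ x ∈ B, ∀ y ∈ B, col (2 * N + 3) x = col (2 * N + 3) y) :
    ∫⁻ t, ENNReal.ofReal (Real.exp (θ * cnt (ev C N) B t)) ∂PG G ≤
      ENNReal.ofReal (Real.exp (p * Real.exp θ * B.card)) := by
  let f : V → Env → ℝ≥0∞ := fun z t =>
    ENNReal.ofReal (Real.exp (θ * (ev C N z).indicator (fun _ => (1 : ℝ)) t))
  have hf : ∀ z, Measurable (f z) := fun z =>
    (Real.measurable_exp.comp ((measurable_const.indicator (measurableSet_ev C N z)).const_mul
      θ)).ennreal_ofReal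
  have df : ∀ z, Dep (f z) ((bE N).map (se z).toEmbedding) := fun z t t' ht => by
    simp only [f]
    by_cases h1 : t ∈ ev C N z
    · rw [Set.indicator_of_mem h1, Set.indicator_of_mem (ev_congr ht h1)]
    · rw [Set.indicator_of_notMem h1, Set.indicator_of_notMem
        fun h2 => h1 (ev_congr (fun e he => (ht e he).symm) h2)]
  have h1 : ∀ t, ENNReal.ofReal (Real.exp (θ * cnt (ev C N) B t)) = ∏ z ∈ B, f z t := by
    intro t
    unfold cnt
    rw [Finset.mul_sum, Real.exp_sum,
      ENNReal.ofReal_prod_of_nonneg fun _ _ => (Real.exp_pos _).le]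
  simp only [h1]
  rw [lint_prod_dep hf df B fun x hx y hy hxy => disjoint_of_col (hB x hx y hy) hxy]
  calc ∏ z ∈ B, ∫⁻ t, f z t ∂PG G ≤ ∏ _z ∈ B, ENNReal.ofReal (Real.exp (p * Real.exp θ)) :=
        Finset.prod_le_prod' fun z _ =>
          mgf_one (PG G) (measurableSet_ev C N z) θ hp ((prob_ev C N z).trans_le h)
    _ = _ := by
      rw [Finset.prod_const, ← ENNReal.ofReal_pow (Real.exp_pos _).le, ← Real.exp_nat_mul, mul_comm]

/-- **Large deviations**, for the product measure and the local events. -/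
theorem ld_PG (hG : G (Set.Iio 0) = 0) (hatom : ∀ x, G {x} = 0) {ε : ℝ} (hε : 0 < ε) (C L : ℝ) :
    ∀ᶠ N : ℕ in atTop, ∀ A : Finset V, PG G {t | ε * A.card ≤ cnt (ev C N) A t} ≤
      ENNReal.ofReal (Real.exp (-(L * A.card / (N : ℝ) ^ 2))) := by
  set θ : ℝ := 50 * (|L| + 1) / ε with hθ
  have hL : 0 < |L| + 1 := by positivity
  have hθ0 : 0 < θ := by positivity
  have hθε : θ * ε = 50 * (|L| + 1) := by rw [hθ]; field_simp
  set p : ℝ := θ * ε / 2 / Real.exp θ with hp
  have hp0 : 0 < p := by positivity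
  have hpe : p * Real.exp θ = θ * ε / 2 := by rw [hp]; field_simp
  filter_upwards [(prob_locEv hG hatom {0} C).eventually_le_const (ENNReal.ofReal_pos.2 hp0),
    eventually_ge_atTop 1] with N hN hN1 A
  have : NeZero (2 * N + 3) := ⟨by omega⟩
  have h1 := ld_abstract (PG G) A (col (2 * N + 3)) (measurableSet_ev C N) hθ0.le hpe.le
    fun j => mgf_class hp0.le hN _ fun x hx y hy =>
      (Finset.mem_filter.1 hx).2.trans (Finset.mem_filter.1 hy).2.symm
  refine h1.trans (ENNReal.ofReal_le_ofReal (Real.exp_le_exp.2 (neg_le_neg ?_)))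
  rw [Fintype.card_prod, ZMod.card, hθε]
  have hN2 : (1 : ℝ) ≤ N := by exact_mod_cast hN1
  have hA : (0 : ℝ) ≤ A.card := Nat.cast_nonneg _
  push_cast
  rw [div_le_div_iff₀ (by positivity) (by positivity)]
  have h2 : 2 * ((2 * (N : ℝ) + 3) * (2 * N + 3)) ≤ 50 * (N : ℝ) ^ 2 := by nlinarith only [hN2]
  have h3 : L * A.card ≤ (|L| + 1) * A.card :=
    mul_le_mul_of_nonneg_right ((le_abs_self L).trans (by linarith)) hA
  calc L * A.card * (2 * ((2 * (N : ℝ) + 3) * (2 * N + 3)))
      ≤ (|L| + 1) * A.card * (2 * ((2 * (N : ℝ) + 3) * (2 * N + 3))) :=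
        mul_le_mul_of_nonneg_right h3 (by positivity)
    _ ≤ (|L| + 1) * A.card * (50 * (N : ℝ) ^ 2) :=
        mul_le_mul_of_nonneg_left h2 (by positivity)
    _ = _ := by ring

variable {Ω : Type*} [MeasurableSpace Ω] {P : Measure Ω} {t : latt.edgeSet → Ω → ℝ}

/-- **Large deviations of the number of highway points.** -/
theorem ld_highway (hG : G (Set.Iio 0) = 0) (hatom : ∀ x, G {x} = 0)
    (ht : ∀ e, Measurable (t e)) (hlaw : ∀ e, P.map (t e) = G) (hind : iIndepFun t P)
    {ε : ℝ} (hε : 0 < ε) (C L : ℝ) :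
    ∀ᶠ N : ℕ in atTop, ∀ A : Finset V,
      P {ω | ε * A.card ≤ ({z | z ∈ A ∧ Highway (fun e => t e ω) C N z}.ncard : ℝ)} ≤
        ENNReal.ofReal (Real.exp (-(L * A.card / (N : ℝ) ^ 2))) := by
  have hm : Measurable fun ω => (fun e => t e ω : Env) := measurable_pi_lambda _ ht
  have hmap : P.map (fun ω e => t e ω) = PG G := by
    have h1 := hind.map_fun_eq_infinitePi_map ht
    rw [h1]
    unfold PG
    simp only [hlaw]
  filter_upwards [ld_PG hG hatom hε C L] with N hN A
  refine le_trans ?_ (hN A)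
  rw [← hmap, Measure.map_apply hm
    (measurableSet_le measurable_const (measurable_cnt (measurableSet_ev C N) A))]
  refine measure_mono_ae ?_
  filter_upwards [ae_pos_of_law hG hatom ht hlaw] with ω hω h
  exact le_trans h (ncard_le_cnt hω C N A)

end Vale.Agent.N158
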